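import Vale.Agent.P301.H99.Lim
import Mathlib.AlgebraicTopology.FundamentalGroupoid.SimplyConnected

/-! P301, the target: nef isotropic line bundles with nonzero class on compact irreducible
holomorphic symplectic Kähler manifolds are semiample. -/

open scoped Manifold ContDiff ComplexOrder Topology

namespace Vale.Agent.P301Z

open Vale.Agent.P272.K Vale.Agent.P301.H599 Vale.Agent.P301.H99

variable {d : ℕ} {X : Type} [TopologicalSpace X] [ChartedSpace (Cm d) X] {ι : Type}

/-- The class of the curvature of `ρ` is nef. -/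
def Nef (w : Chart d X → Cm d → Matrix (Fin d) (Fin d) ℂ) (L : LineBundle d X ι)
    (ρ : ι → X → ℝ) : Prop :=
  ∀ ε : ℝ, 0 < ε → ∃ u : X → ℝ, Smooth (d := d) u ∧ ∀ e x, At e x →
    (curvature L ρ e (e x) + (ε : ℂ) • w e (e x) + ddc u e (e x)).PosSemidef

/-- The top self-intersection of the class of the curvature of `ρ` is zero. -/
def Isotropic (L : LineBundle d X ι) (ρ : ι → X → ℝ) : Prop :=
  IsIntegral (fun (e : Chart d X) z => (curvature L ρ e z).det.re) 0

/-- Some positive power of `L` is generated by its global holomorphic sections. -/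
def Semiample (L : LineBundle d X ι) : Prop :=
  ∃ m : ℕ, 0 < m ∧ ∀ x : X, ∃ f : ι → X → ℂ, Sec L m f ∧ ∃ i, x ∈ L.U i ∧ f i x ≠ 0

/-- The strong hyperkähler SYZ conjecture. -/
def SYZ : Prop :=
  ∀ (d : ℕ) (X : Type) [TopologicalSpace X] [T2Space X] [CompactSpace X] [SimplyConnectedSpace X]
    [ChartedSpace (Cm d) X] [IsManifold 𝓘(ℂ, Cm d) ω X]
    (w s : Chart d X → Cm d → Matrix (Fin d) (Fin d) ℂ), IsSymplectic d X w s →
    ∀ (ι : Type) (L : LineBundle d X ι) (ρ : ι → X → ℝ), IsMetric L ρ → Nef w L ρ →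
      Isotropic L ρ → ¬ SameClass (curvature L ρ) (fun _ _ => 0) → Semiample L

end Vale.Agent.P301Z
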