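import Vale.Agent.P301Z.Lat.Defs
import Vale.Agent.P301Z.Semi.Defs2
import Vale.Agent.P301Z.Sn.Defs
import Vale.Agent.P301Z.Key.Defs
import Vale.Agent.P301.H450.HKC

/-!
# P301Z: the common definitions of the blocks
-/

open scoped Manifold ContDiff ComplexOrder Topology Matrix
open Set Filter Metric
open Vale.Agent.P272.K Vale.Agent.P299.IX Vale.Agent.P299.IX.Fock
open Vale.Agent.P277Z (Hol)
open Vale.Agent.P281Z (Mf HolM Emb)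
open Vale.Agent.P281Z.Hg
open Vale.Agent.P299.D (pullM jacF)
open Vale.Agent.P301.H599 (IsHolTwoForm IsSymplectic LineBundle IsMetric curvature SameClass)
open Vale.Agent.P301.H450 (IsHK)
open Vale.Agent.P301Z.Lat

noncomputable section

namespace Vale.Agent.P301Z

variable {n r : ℕ}

/-! ### The frame -/

/-- integral vectors `l`, `m`, `v` with `q(l,m) = D > 0`, `q(v,v) = e > 0`, all other products
zero -/
structure Fr (B : BB n r) where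
  l : Fin r → ℤ
  m : Fin r → ℤ
  v : Fin r → ℤ
  D : ℝ
  e : ℝ
  Dpos : 0 < D
  epos : 0 < e
  ll : qR B.q (zr l) (zr l) = 0
  lm : qR B.q (zr l) (zr m) = D
  lv : qR B.q (zr l) (zr v) = 0
  mm : qR B.q (zr m) (zr m) = 0
  mv : qR B.q (zr m) (zr v) = 0
  vv : qR B.q (zr v) (zr v) = e

namespace Fr

variable {B : BB n r} (F : Fr B)

/-- the period `m + τ v - e τ² / (2 D) l` -/
def p (τ : ℂ) : Fin r → ℂ :=
  rc (zr F.m) + τ • rc (zr F.v) - ((F.e : ℂ) * τ ^ 2 / (2 * (F.D : ℂ))) • rc (zr F.l)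

/-- the real part of the period -/
def re (τ : ℂ) : Fin r → ℝ := fun i => (F.p τ i).re

/-- `Im p (x + i T) = T v' x` -/
def v' (x : ℝ) : Fin r → ℝ := zr F.v - (F.e * x / F.D) • zr F.l

/-- the period of the rotation -/
def j (k : Fin r → ℝ) (x : ℝ) : Fin r → ℂ := rc k - Complex.I • rc (F.v' x)

/-- `k` is orthogonal to the frame and has the square `e` -/
def InP (k : Fin r → ℝ) : Prop :=
  qR B.q k (zr F.l) = 0 ∧ qR B.q k (zr F.m) = 0 ∧ qR B.q k (zr F.v) = 0 ∧ qR B.q k k = F.e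

end Fr

/-! ### Rotation -/

variable {B : BB n r}

/-- `Z` is the rotation of `(Y, s, w)`: along a diffeomorphism `g` which respects the markings,
the Kähler form of `Z` is `σ + σ̄` and twice its symplectic form is `ω - σ + σ̄` -/
def Rot (Y : MK B) (s w : Fld Y.V) (Z : MK B) : Prop :=
  IsHK s w 1 ∧ ∃ (g : Y.V.X → Z.V.X) (g' : Z.V.X → Y.V.X) (s' w' : Fld Z.V) (u a : Fs Y.V)
    (u' a' : Fs Z.V) (T : Fs Z.V → Fs Y.V), Function.LeftInverse g' g ∧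
    Function.RightInverse g' g ∧ Y.Mor Z g ∧ Z.Mor Y g' ∧ IsHolTwoForm s' ∧
    (∀ e x, At e x → (s' e (e x)).det ≠ 0) ∧ IsHK s' w' 1 ∧ Is20 s u ∧ Is11 w a ∧ Is20 s' u' ∧
    Is11 w' a' ∧ IsPb g T ∧ T a' = u + (dR Y.V).cj u ∧ (2 : ℂ) • T u' = a - u + (dR Y.V).cj u

/-- a marked manifold with a two-form -/
structure Pt (B : BB n r) : Type 1 where
  Y : MK B
  s : Fld Y.V

/-- `Z` is the rotation of `P` for the hyperkähler metric in a positive multiple of the class `k` -/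
def RotK (P : Pt B) (k : Fin r → ℝ) (Z : MK B) : Prop :=
  ∃ (w : Fld P.Y.V) (lam : ℝ), 0 < lam ∧ P.Y.Kc w (lam • k) ∧ Rot P.Y P.s w Z

/-- isomorphisms -/
def Iso (P P' : Pt B) : Prop :=
  ∃ (g : P.Y.V.X → P'.Y.V.X) (g' : P'.Y.V.X → P.Y.V.X), Function.LeftInverse g' g ∧
    Function.RightInverse g' g ∧ HolM (n + n) (n + n) g ∧ HolM (n + n) (n + n) g' ∧
    P.Y.Mor P'.Y g ∧ P'.Y.Mor P.Y g' ∧ IsHolTwoForm P.s ∧ IsHolTwoForm P'.s ∧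
    ∀ (e : Chart (n + n) P.Y.V.X) (e' : Chart (n + n) P'.Y.V.X) y, At e y → At e' (g y) →
      P.s e (e y) = (jacF g e e' y)ᵀ * P'.s e' (e' (g y)) * jacF g e e' y

/-! ### Families -/

/-- a marked manifold with a two-form and a map to `V` -/
structure Fb (B : BB n r) {D : ℕ} (V : Mf D) : Type 1 extends Pt B where
  i : Y.V.X → V.X

/-- A local family over the ball of radius `δ` at `t₀`, inside the compact Kähler manifold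
`(V, W)`: the fibre over `t` has the period `p (t 0)` and the Kähler class `k`, the markings are
flat, the symplectic forms are holomorphic in `t`. -/
structure LF (F : Fr B) (k : Fin r → ℝ) {D : ℕ} {V : Mf D} (W : Fld V) (c : ℕ) (t₀ : Cm (c + 1))
    (δ : ℝ) : Type 1 where
  dim : D = c + 1 + (n + n)
  pos : 0 < δ
  kah : IsKahler W
  im : ∀ t ∈ ball t₀ δ, 0 < (t 0).im
  O : Set V.X
  g : V.X → Cm (c + 1)
  opn : IsOpen O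
  hol : ∀ y ∈ O, ∀ a, Hol D (fun y => g y a) y
  sbm : ∀ y ∈ O, ∀ e : Chart D V.X, At e y →
    Function.Surjective (fderiv ℂ (fun z => g (e.symm z)) (e y))
  maps : ∀ y ∈ O, g y ∈ ball t₀ δ
  Φ : Cm (c + 1) → Fb B V
  emb : ∀ t ∈ ball t₀ δ, Emb (n + n) D (Φ t).i (O ∩ g ⁻¹' {t})
  sym : ∀ t ∈ ball t₀ δ, (Φ t).Y.Sym (Φ t).s (F.p (t 0))
  kc : ∀ t ∈ ball t₀ δ, (Φ t).Y.Kc (pullM (Φ t).i W) k
  M : MK B
  Mk : M.V.Kah
  Ψ : V.X → M.V.X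
  Θ : Cm (c + 1) → M.V.X → V.X
  h1 : ∀ t ∈ ball t₀ δ, ∀ z, Θ t z ∈ O ∧ g (Θ t z) = t ∧ Ψ (Θ t z) = z
  h2 : ∀ y ∈ O, Θ (g y) (Ψ y) = y
  Ψc : ∀ y ∈ O, ContinuousAt Ψ y
  Ψs : ∀ y ∈ O, ∀ (e : Chart D V.X) (e' : Chart (n + n) M.V.X), At e y → At e' (Ψ y) →
    ContDiffAt ℝ ∞ (fun z => e' (Ψ (e.symm z))) (e y)
  Θc : ∀ t ∈ ball t₀ δ, ∀ z, ContinuousAt (fun q : Cm (c + 1) × M.V.X => Θ q.1 q.2) (t, z)
  Θs : ∀ t ∈ ball t₀ δ, ∀ z, ∀ (e' : Chart (n + n) M.V.X) (e : Chart D V.X), At e' z →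
    At e (Θ t z) →
    ContDiffAt ℝ ∞ (fun q : Cm (c + 1) × Cm (n + n) => e (Θ q.1 (e'.symm q.2))) (t, e' z)
  mor : ∀ t ∈ ball t₀ δ, (Φ t).Y.Mor M fun z => Ψ ((Φ t).i z)
  rel : ∀ y ∈ O, ∀ e : Chart D V.X, At e y → ∃ S : Cm D → Mx D,
    (∀ a b, AnalyticAt ℂ (fun z => S z a b) (e y)) ∧ ∀ᶠ y' in 𝓝 y, ∀ t ∈ ball t₀ δ, ∀ z,
      (Φ t).i z = y' → ∀ e' : Chart (n + n) (Φ t).Y.V.X, At e' z →
        (Φ t).s e' (e' z) = (jacF (Φ t).i e' e z)ᵀ * S (e y') * jacF (Φ t).i e' e z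

/-- two fibres of a local family whose periods have the real part `x` -/
def Step (F : Fr B) (k : Fin r → ℝ) (x : ℝ) (P P' : Pt B) : Prop :=
  ∃ (D : ℕ) (V : Mf D) (W : Fld V) (c : ℕ) (t₀ : Cm (c + 1)) (δ : ℝ) (L : LF F k W c t₀ δ)
    (t t' : Cm (c + 1)), t ∈ ball t₀ δ ∧ t' ∈ ball t₀ δ ∧ (t 0).re = x ∧ (t' 0).re = x ∧
    (L.Φ t).toPt = P ∧ (L.Φ t').toPt = P'

/-- chains of steps and isomorphisms -/
def Conn (F : Fr B) (k : Fin r → ℝ) (x : ℝ) : Pt B → Pt B → Prop :=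
  Relation.EqvGen fun P P' => Step F k x P P' ∨ Iso P P'

/-- The fibres `R T` with the periods `p (x + i T)`, `T ≥ T₁`, of a family over a curve; they tend
to the fibre over the puncture `A.o`. -/
structure Ray (F : Fr B) (k : Fin r → ℝ) (x : ℝ) : Type 1 where
  A : Sn.Fam (n + n)
  W : Fld A.V
  kah : IsKahler W
  T₁ : ℝ
  pos : 0 < T₁
  R : ℝ → Fb B A.V
  t : ℝ → A.C.X
  off : ∀ T, T₁ ≤ T → t T ∉ A.S
  emb : ∀ T, T₁ ≤ T → Emb (n + n) (n + n + 1) (R T).i (A.f ⁻¹' {t T})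
  sym : ∀ T, T₁ ≤ T → (R T).Y.Sym (R T).s (F.p (x + T * Complex.I))
  kc : ∀ T, T₁ ≤ T → (R T).Y.Kc (pullM (R T).i W) k
  loc : ∀ T, T₁ ≤ T → ∃ (δ : ℝ) (L : LF F k W 0 (fun _ => x + T * Complex.I) δ),
    ∀ T', T₁ ≤ T' → |T' - T| < δ → L.Φ (fun _ => x + T' * Complex.I) = R T'
  cont : ContinuousOn t (Ici T₁)
  lim : Tendsto t atTop (𝓝 A.o)
  grow : ∃ c C : ℝ, 0 < c ∧ ∀ᶠ T in atTop, |Key.TT (A.τ (t T)) - c * T| ≤ C
  U : Set A.C.X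
  Q : Sn.Frm A U 2
  opn : IsOpen U
  disj : Disjoint U A.S
  vol : ∃ (C : ℝ) (a : ℕ), ∀ᶠ y in 𝓝[≠] A.o, y ∈ U ∧ ∃ I, I ≤ C * |Real.log ‖A.τ y‖| ^ a ∧
    IsIntegral (fun (e : Chart (n + n) (Q.Y y).X) z => ‖Q.u y e z‖) I
  cmp : ∀ᶠ T in atTop, ∃ j : (R T).Y.V.X → (Q.Y (t T)).X, HolM (n + n) (n + n) j ∧
    (∀ z, Q.i (t T) (j z) = (R T).i z) ∧ ∀ (e : Chart (n + n) (R T).Y.V.X)
      (e' : Chart (n + n) (Q.Y (t T)).X) z, At e z → At e' (j z) →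
      ((R T).s e (e z)).det = (jacF j e e' z).det ^ 2 * Q.u (t T) e' (e' (j z))

/-! ### Tori -/

/-- `Φ` is a holomorphic parametrisation by the tube modulo periods -/
structure ParT {N : ℕ} {Y : Type} [TopologicalSpace Y] [ChartedSpace (Cm N) Y] (R : ℝ)
    (Φ : Cm N → Y) : Prop where
  cont : ∀ v ∈ Key.Tb N R, ContinuousAt Φ v
  hol : ∀ v ∈ Key.Tb N R, ∀ e : Chart N Y, At e (Φ v) → ContDiffAt ℂ ω (fun v' => e (Φ v')) v
  unit : ∀ v ∈ Key.Tb N R, ∀ e : Chart N Y, At e (Φ v) → (jmat (fun v' => e (Φ v')) v).det ≠ 0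
  peri : ∀ v ∈ Key.Tb N R, ∀ q, Φ (v + Key.per q) = Φ v
  inj : ∀ v ∈ Key.Tb N R, ∀ v' ∈ Key.Tb N R, Φ v = Φ v' → ∃ q, v' = v + Key.per q

/-- the pull back of a form under a parametrisation -/
def pbF {N d : ℕ} {V : Mf d} (Φ : Cm N → V.X) (u : Fs V) (y : Cm N) : Fo N :=
  lr (jc (fun v => chartAt (Cm d) (Φ y) (Φ v)) y) *ᵥ
    vl u (chartAt (Cm d) (Φ y)) (chartAt (Cm d) (Φ y) (Φ y))

/-- the value of a form on two real vectors -/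
def ev2 {N : ℕ} (u : Fo N) (a b : Cm N) : ℂ := (iotV (cx b) *ᵥ (iotV (cx a) *ᵥ u)) ∅

/-- the period vector `2 π i e_j` -/
def pe {N : ℕ} (j : Fin N) : Cm N := Pi.single j (2 * Real.pi * Complex.I)

/-- the class `c` has the period zero on all coordinate two-tori of the tube -/
def ZP (Y : MK B) (R : ℝ) (Φ : Cm (n + n) → Y.V.X) (c : Fin r → ℂ) : Prop :=
  ∀ u, Cl2 Y.V u → Y.m.c u = c → ∀ v ∈ Key.Tb (n + n) R, ∀ i j,
    ∫ a in Icc (0 : Fin 2 → ℝ) 1, ev2 (pbF Φ u (v + a 0 • pe i + a 1 • pe j)) (pe i) (pe j) = 0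

/-- a local Lagrangian fibration on which the form `a` is exact -/
structure LagFib (V : Mf (n + n)) (s a : Fld V) where
  U : Set V.X
  π : V.X → Cm n
  opn : IsOpen U
  hol : ∀ x ∈ U, ∀ j, Hol (n + n) (fun y => π y j) x
  maps : ∀ x ∈ U, π x ∈ ball (0 : Cm n) 1
  onto : ∀ b ∈ ball (0 : Cm n) 1, ∃ x ∈ U, π x = b
  prop : ∀ K ⊆ ball (0 : Cm n) 1, IsCompact K → IsCompact (U ∩ π ⁻¹' K)
  sbm : ∀ x ∈ U, ∀ e : Chart (n + n) V.X, At e x →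
    Function.Surjective (fderiv ℂ (fun z => π (e.symm z)) (e x))
  conn : ∀ b ∈ ball (0 : Cm n) 1, IsPreconnected (U ∩ π ⁻¹' {b})
  lag : ∀ x ∈ U, ∀ e : Chart (n + n) V.X, At e x → ∀ v v',
    fderiv ℂ (fun z => π (e.symm z)) (e x) v = 0 → fderiv ℂ (fun z => π (e.symm z)) (e x) v' = 0 →
    v ⬝ᵥ (s e (e x) *ᵥ v') = 0
  β : Fs V
  deg : (dR V).dg 1 β = β
  exact : ∀ x ∈ U, ∀ e : Chart (n + n) V.X, At e x → vl ((dR V).d β) e (e x) = f11 (a e (e x))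

/-! ### The deformation space -/

/-- The deformations of `(X, L)` over a ball; `p₀` is the period, `k₀` the Kähler class, `l` the
first Chern class. -/
structure DefF (X : MK B) {ι : Type} (L : LineBundle (n + n) X.V.X ι) (p₀ : Fin r → ℂ)
    (k₀ : Fin r → ℝ) (l : Fin r → ℤ) : Type 1 where
  b : ℕ
  R : ℝ
  pos : 0 < R
  Y : Cm b → MK B
  κ : Cm b → Type
  M : ∀ t, LineBundle (n + n) (Y t).V.X (κ t)
  ρ : ∀ t, κ t → (Y t).V.X → ℝ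
  N : ℕ
  fam : Semi.CFam X.V.X (fun t => (Y t).V.X) κ M N (ball 0 R)
  c1 : ∀ t ∈ ball (0 : Cm b) R, (Y t).C1 (M t) (ρ t) l
  h0 : ∀ m k, Semi.H0 (M 0) m k → Semi.H0 L m k
  s : ∀ t, Fld (Y t).V
  per : Cm b → Fin r → ℂ
  sym : ∀ t ∈ ball (0 : Cm b) R, (Y t).Sym (s t) (per t)
  quad : ∀ t ∈ ball (0 : Cm b) R, qC B.q (per t) (per t) = 0 ∧ qC B.q (per t) (rc (zr l)) = 0
  cont : ContinuousOn per (ball 0 R)
  inj : ∀ t ∈ ball (0 : Cm b) R, ∀ t' ∈ ball (0 : Cm b) R, ∀ c : ℂ, per t = c • per t' → t = t'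
  N₀ : Set (Fin r → ℂ)
  χ : (Fin r → ℂ) → Cm b
  opn : IsOpen N₀
  mem : p₀ ∈ N₀
  dχ : DifferentiableOn ℂ χ N₀
  χ0 : χ p₀ = 0
  inv : ∀ p ∈ N₀, qC B.q p p = 0 → qC B.q p (rc (zr l)) = 0 →
    χ p ∈ ball (0 : Cm b) R ∧ ∃ c : ℂ, c ≠ 0 ∧ per (χ p) = c • p
  kop : ∀ᶠ z in 𝓝 ((0 : Cm b), k₀), qC B.q (per z.1) (rc z.2) = 0 → ∃ w, (Y z.1).Kc w z.2

/-- The slice: a holomorphic map `J` from a polydisc into the periods orthogonal to `l`, which is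
open up to scalars and whose real points are periods of rotations. -/
structure Slice (F : Fr B) (N : Set (Fin r → ℂ)) (N' : Set (Fin r → ℝ)) where
  b : ℕ
  p : Fin (b + 1) → ℝ
  ρ : ℝ
  pos : 0 < ρ
  J : Cm (b + 1) → Fin r → ℂ
  kk : (Fin b → ℝ) → Fin r → ℝ
  T₀ : ℝ
  T0 : 0 < T₀
  c₁ : ℝ
  c1 : 0 < c₁
  hol : DifferentiableOn ℂ J (ball (fun i => (p i : ℂ)) ρ)
  maps : ∀ z ∈ ball (fun i => (p i : ℂ)) ρ, J z ∈ N ∧ qC B.q (J z) (J z) = 0 ∧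
    qC B.q (J z) (rc (zr F.l)) = 0
  real : ∀ (x : ℝ) (y : Fin b → ℝ), |x - p 0| < ρ → (∀ i, |y i - p i.succ| < ρ) →
    F.InP (kk y) ∧ c₁ • F.re (x + T₀ * Complex.I) ∈ N' ∧ ∃ c : ℂ, c ≠ 0 ∧
      J (fun i => ((Fin.cons x y : Fin (b + 1) → ℝ) i : ℂ)) = c • F.j (kk y) x
  opn : ∀ᶠ z in 𝓝 (J fun i => (p i : ℂ)), qC B.q z z = 0 → qC B.q z (rc (zr F.l)) = 0 →
    ∃ y ∈ ball (fun i => (p i : ℂ)) ρ, ∃ c : ℂ, c ≠ 0 ∧ J y = c • z

end Vale.Agent.P301Z
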