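import Vale.Agent.P301Z.Sk

/-!
# P301Z: linear algebra of the frame, chains and rays
-/

open scoped Topology Matrix
open Set Filter Metric
open Vale.Agent.P272.K
open Vale.Agent.P301Z.Lat

noncomputable section

namespace Vale.Agent.P301Z.Tp

variable {n r : ℕ}

theorem qC_rc (q : Matrix (Fin r) (Fin r) ℤ) (x y : Fin r → ℝ) :
    qC q (rc x) (rc y) = (qR q x y : ℂ) := by
  simp [qC, qR, rc]

theorem qR_add (q : Matrix (Fin r) (Fin r) ℤ) (x x' y : Fin r → ℝ) :
    qR q (x + x') y = qR q x y + qR q x' y := by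
  simp only [qR, Pi.add_apply, add_mul, mul_add, Finset.sum_add_distrib]

theorem qR_add' (q : Matrix (Fin r) (Fin r) ℤ) (x y y' : Fin r → ℝ) :
    qR q x (y + y') = qR q x y + qR q x y' := by
  simp only [qR, Pi.add_apply, mul_add, Finset.sum_add_distrib]

theorem qR_smul (q : Matrix (Fin r) (Fin r) ℤ) (c : ℝ) (x y : Fin r → ℝ) :
    qR q (c • x) y = c * qR q x y := by
  simp only [qR, Pi.smul_apply, smul_eq_mul, Finset.mul_sum]
  exact Finset.sum_congr rfl fun i _ => Finset.sum_congr rfl fun j _ => by ring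

theorem qR_smul' (q : Matrix (Fin r) (Fin r) ℤ) (c : ℝ) (x y : Fin r → ℝ) :
    qR q x (c • y) = c * qR q x y := by
  simp only [qR, Pi.smul_apply, smul_eq_mul, Finset.mul_sum]
  exact Finset.sum_congr rfl fun i _ => Finset.sum_congr rfl fun j _ => by ring

theorem qR_symm (B : BB n r) (x y : Fin r → ℝ) : qR B.q x y = qR B.q y x := by
  unfold qR
  rw [Finset.sum_comm]
  refine Finset.sum_congr rfl fun i _ => Finset.sum_congr rfl fun j _ => ?_
  have : B.q j i = B.q i j := by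
    have := congrFun (congrFun B.symm i) j
    simpa [Matrix.transpose_apply] using this
  rw [this]; ring

theorem qC_smul (q : Matrix (Fin r) (Fin r) ℤ) (c : ℂ) (x y : Fin r → ℂ) :
    qC q (c • x) y = c * qC q x y := by
  simp only [qC, Pi.smul_apply, smul_eq_mul, Finset.mul_sum]
  exact Finset.sum_congr rfl fun i _ => Finset.sum_congr rfl fun j _ => by ring

theorem qC_smul' (q : Matrix (Fin r) (Fin r) ℤ) (c : ℂ) (x y : Fin r → ℂ) :
    qC q x (c • y) = c * qC q x y := by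
  simp only [qC, Pi.smul_apply, smul_eq_mul, Finset.mul_sum]
  exact Finset.sum_congr rfl fun i _ => Finset.sum_congr rfl fun j _ => by ring

theorem qC_sub (q : Matrix (Fin r) (Fin r) ℤ) (x x' y : Fin r → ℂ) :
    qC q (x - x') y = qC q x y - qC q x' y := by
  simp only [qC, Pi.sub_apply, sub_mul, mul_sub, Finset.sum_sub_distrib]

variable {B : BB n r} (F : Fr B)

theorem p_eq (x T : ℝ) : F.p (x + T * Complex.I) =
    rc (zr F.m + x • zr F.v + (F.e * (T ^ 2 - x ^ 2) / (2 * F.D)) • zr F.l) +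
      (Complex.I * T) • rc (F.v' x) := by
  have hD : (F.D : ℂ) ≠ 0 := Complex.ofReal_ne_zero.2 F.Dpos.ne'
  funext i
  simp only [Fr.p, Fr.v', rc, Pi.add_apply, Pi.sub_apply, Pi.smul_apply, smul_eq_mul]
  push_cast
  field_simp
  ring_nf
  rw [Complex.I_sq]
  ring

theorem re_eq (x T : ℝ) : F.re (x + T * Complex.I) =
    zr F.m + x • zr F.v + (F.e * (T ^ 2 - x ^ 2) / (2 * F.D)) • zr F.l := by
  funext i
  rw [Fr.re, p_eq]
  generalize zr F.m + x • zr F.v + (F.e * (T ^ 2 - x ^ 2) / (2 * F.D)) • zr F.l = a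
  simp [rc]

theorem im_eq (x T : ℝ) : F.p (x + T * Complex.I) - star (F.p (x + T * Complex.I)) =
    (-(2 * Complex.I * T * (F.e * x / F.D : ℝ))) • rc (zr F.l) +
      (2 * Complex.I * T) • rc (zr F.v) := by
  rw [p_eq]
  funext i
  simp [rc, Fr.v']
  ring

theorem q_re (x T : ℝ) :
    qR B.q (F.re (x + T * Complex.I)) (F.re (x + T * Complex.I)) = F.e * T ^ 2 := by
  have h1 := F.ll
  have h2 := F.lm
  have h3 := F.lv
  have h4 := F.mm
  have h5 := F.mv
  have h6 := F.vv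
  have hD := F.Dpos.ne'
  rw [re_eq]
  simp only [qR_add, qR_add', qR_smul, qR_smul', qR_symm B (zr F.m) (zr F.l),
    qR_symm B (zr F.v) (zr F.l), qR_symm B (zr F.v) (zr F.m), h1, h2, h3, h4, h5, h6]
  field_simp
  ring

theorem q_j_re {k : Fin r → ℝ} (hk : F.InP k) (x T : ℝ) :
    qC B.q (F.j k x) (rc (F.re (x + T * Complex.I))) = 0 := by
  obtain ⟨k1, k2, k3, -⟩ := hk
  have h1 := F.ll
  have h2 := F.lm
  have h3 := F.lv
  have h5 := F.mv
  have h6 := F.vv
  have hD := F.Dpos.ne'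
  have e1 : qR B.q k (F.re (x + T * Complex.I)) = 0 := by
    rw [re_eq]
    simp only [qR_add', qR_smul', k1, k2, k3]
    ring
  have e2 : qR B.q (F.v' x) (F.re (x + T * Complex.I)) = 0 := by
    rw [re_eq, Fr.v', sub_eq_add_neg, ← neg_smul]
    simp only [qR_add, qR_add', qR_smul, qR_smul', qR_symm B (zr F.v) (zr F.l),
      qR_symm B (zr F.v) (zr F.m), h1, h2, h3, h5, h6]
    field_simp
    ring
  rw [Fr.j, qC_sub, qC_smul, qC_rc, qC_rc, e1, e2]
  simp

/-- the classes `2 Re p (x + i T)` tend to the ray of `l` -/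
theorem lim_l (x T₁ ε : ℝ) (hε : 0 < ε) : ∃ T c : ℝ, T₁ ≤ T ∧ 0 < c ∧
    ‖c • (fun i => 2 * (F.p (x + T * Complex.I) i).re) - zr F.l‖ < ε := by
  have hD := F.Dpos
  have he := F.epos
  have t1 : Tendsto (fun T : ℝ => F.e * (T ^ 2 - x ^ 2) / F.D) atTop atTop := by
    refine Tendsto.atTop_div_const hD (Tendsto.const_mul_atTop he ?_)
    exact tendsto_atTop_add_const_right _ _ (tendsto_pow_atTop two_ne_zero)
  have t2 : Tendsto (fun T : ℝ => ‖(F.e * (T ^ 2 - x ^ 2) / F.D)⁻¹ •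
      ((2 : ℝ) • (zr F.m + x • zr F.v))‖) atTop (𝓝 0) := by
    have := (t1.inv_tendsto_atTop.smul_const ((2 : ℝ) • (zr F.m + x • zr F.v))).norm
    simpa using this
  obtain ⟨T, h1, h2, h3⟩ := ((eventually_ge_atTop T₁).and ((t1.eventually_gt_atTop 0).and
    (t2.eventually (gt_mem_nhds hε)))).exists
  refine ⟨T, (F.e * (T ^ 2 - x ^ 2) / F.D)⁻¹, h1, inv_pos.2 h2, ?_⟩
  have e : (fun i => 2 * (F.p (x + T * Complex.I) i).re) =
      (2 : ℝ) • (zr F.m + x • zr F.v) + (F.e * (T ^ 2 - x ^ 2) / F.D) • zr F.l := by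
    funext i
    have := congrFun (re_eq F x T) i
    rw [Fr.re] at this
    rw [this]
    simp only [Pi.add_apply, Pi.smul_apply, smul_eq_mul]
    field_simp
  rw [e, smul_add, smul_smul _ (F.e * (T ^ 2 - x ^ 2) / F.D), inv_mul_cancel₀ h2.ne', one_smul,
    add_sub_cancel_right]
  exact h3

variable {F}

theorem step_symm {k x} {P P' : Pt B} (h : Step F k x P P') : Step F k x P' P := by
  obtain ⟨D, V, W, c, t₀, δ, L, t, t', h1, h2, h3, h4, h5, h6⟩ := h
  exact ⟨D, V, W, c, t₀, δ, L, t', t, h2, h1, h4, h3, h6, h5⟩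

theorem conn_iff (hl : HL) (hi : ISO) {k x} (hk : F.InP k) {P P' : Pt B} (h : Conn F k x P P')
    (Z : MK B) : RotK P k Z ↔ RotK P' k Z := by
  induction h with
  | rel a b h =>
    rcases h with h | h
    · exact ⟨hl n r B F k x a b Z hk h, hl n r B F k x b a Z hk (step_symm h)⟩
    · exact hi n r B k a b Z h
  | refl a => exact Iff.rfl
  | symm a b _ ih => exact ih.symm
  | trans a b c _ _ ih ih' => exact ih.trans ih'

theorem mem_ball_ray (x T T' δ : ℝ) (h : |T' - T| < δ) :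
    (fun _ => x + T' * Complex.I : Cm (0 + 1)) ∈ ball (fun _ => x + T * Complex.I) δ := by
  have hδ : 0 < δ := lt_of_le_of_lt (abs_nonneg _) h
  rw [mem_ball, dist_pi_lt_iff hδ]
  intro _
  rw [dist_eq_norm]
  have : (x + T' * Complex.I : ℂ) - (x + T * Complex.I) = ((T' - T : ℝ) : ℂ) * Complex.I := by
    push_cast; ring
  rw [this, norm_mul, Complex.norm_I, mul_one, Complex.norm_real, Real.norm_eq_abs]
  exact h

theorem ray_all (hl : HL) {k x} (hk : F.InP k) (R : Ray F k x) (Z : MK B)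
    (h : RotK (R.R R.T₁).toPt k Z) (T : ℝ) (hT : R.T₁ ≤ T) : RotK (R.R T).toPt k Z := by
  have loc : ∀ T, R.T₁ ≤ T → ∃ δ : ℝ, 0 < δ ∧ ∀ T', R.T₁ ≤ T' → |T' - T| < δ →
      (RotK (R.R T).toPt k Z ↔ RotK (R.R T').toPt k Z) := by
    intro T hT
    obtain ⟨δ, L, hL⟩ := R.loc T hT
    refine ⟨δ, L.pos, fun T' hT' hd => ?_⟩
    have h0 : |T - T| < δ := by simpa using L.pos
    have st : Step F k x (R.R T).toPt (R.R T').toPt :=
      ⟨_, _, _, _, _, δ, L, _, _, mem_ball_ray x T T δ h0, mem_ball_ray x T T' δ hd, by simp,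
        by simp, by rw [hL T hT h0], by rw [hL T' hT' hd]⟩
    exact ⟨hl n r B F k x _ _ Z hk st, hl n r B F k x _ _ Z hk (step_symm st)⟩
  classical
  have hc : ContinuousOn (fun T => decide (RotK (R.R T).toPt k Z)) (Ici R.T₁) := by
    intro T hT
    obtain ⟨δ, hδ, h'⟩ := loc T hT
    refine (continuousWithinAt_const (b := decide (RotK (R.R T).toPt k Z))).congr_of_eventuallyEq
      ?_ rfl
    filter_upwards [self_mem_nhdsWithin, mem_nhdsWithin_of_mem_nhds (ball_mem_nhds T hδ)]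
      with T' h1 h2
    rw [mem_ball, Real.dist_eq] at h2
    exact decide_eq_decide.2 (h' T' h1 h2).symm
  have := isPreconnected_Ici.constant hc (show R.T₁ ∈ Ici R.T₁ from le_refl R.T₁) (show T ∈ Ici R.T₁ from hT)
  exact (decide_eq_decide.1 this).1 h

end Vale.Agent.P301Z.Tp
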