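import Vale.Agent.P301Z.Top0
import Vale.Agent.P301Z.Lat.Sk
import Vale.Agent.P301Z.Sa.Hpt
import Vale.Agent.P272.K.QN.H527.Tools

/-!
# P301Z: the adapters for the lattice block and for abundance
-/

open scoped Manifold ContDiff ComplexOrder Topology Matrix
open Set Filter Metric
open Vale.Agent.P272.K
open Vale.Agent.P281Z (Mf)
open Vale.Agent.P301.H599 (IsHolTwoForm IsSymplectic LineBundle IsMetric curvature SameClass ddc)
open Vale.Agent.P301Z.Lat

noncomputable section

namespace Vale.Agent.P301Z.Tp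

theorem la1_of (h : LAT) : LA1 := fun _ V sc w s h0 hs => h.ex V sc w s h0 hs

theorem la2_of (h : LAT) : LA2 := fun _ _ _ _ _ _ _ _ hY =>
  ⟨h.rel.sym hY, h.rel.pp hY.1.1 hY.1.1, (Complex.pos_iff.1 (h.rel.ppb hY)).1,
    h.rel.p11 hY.1.1 hY.2.1.2⟩

theorem la3_of (h : LAT) : LA3 := fun _ _ _ Y _ _ _ _ hY _ L ρ hρ =>
  ⟨h.c1 Y L ρ hρ, fun l hl => ⟨by
      have h1 := h.rel.p11 hY.1.1 hl.2
      have h2 : rc ((2 * Real.pi) • zr l) = ((2 * Real.pi : ℝ) : ℂ) • rc (zr l) := by
        funext i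
        simp [rc]
      rw [h2, qC_smul'] at h1
      exact (mul_eq_zero.1 h1).resolve_left (Complex.ofReal_ne_zero.2 (by positivity)),
    h.iso hl, (h.l0 hY.2.1 hY.2.2 hl).symm, fun hn _ h0 => h.nef hY hl hn h0⟩⟩

theorem abun_of (h : Sa.ABUN) : ABUN := fun n V _ w s hs ι L ρ h1 h2 h3 h4 h5 =>
  h (n + n) n V.X w s (two_mul n).symm hs ι L ρ h1 h2 h3 h4 h5

variable {n r : ℕ} {B : BB n r}

theorem c11_sum (h : LAT) {Y : MK B} {w : Fld Y.V} {k} (hw : Y.C11 w k) {α : Type} (S : Finset α)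
    (a : α → Fld Y.V) (v : α → Fin r → ℝ) (ha : ∀ i, Y.C11 (a i) (v i)) (t : α → ℝ) :
    Y.C11 (fun e z => ∑ i ∈ S, (t i : ℂ) • a i e z) (∑ i ∈ S, t i • v i) := by
  classical
  induction S using Finset.induction_on with
  | empty =>
    have := h.rel.add 0 0 hw hw
    simpa using this
  | insert j S hj ih =>
    have := h.rel.add (t j) 1 (ha j) ih
    simpa [Finset.sum_insert hj] using this

theorem qC_add' (q : Matrix (Fin r) (Fin r) ℤ) (x y y' : Fin r → ℂ) :
    qC q x (y + y') = qC q x y + qC q x y' := by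
  simp only [qC, Pi.add_apply, mul_add, Finset.sum_add_distrib]

/-- the real vectors orthogonal to `p` -/
def perp (B : BB n r) (p : Fin r → ℂ) : Submodule ℝ (Fin r → ℝ) where
  carrier := {v | qC B.q p (rc v) = 0}
  add_mem' := by
    intro a b ha hb
    have : rc (a + b) = rc a + rc b := by
      funext i
      simp [rc]
    show qC B.q p (rc (a + b)) = 0
    rw [this, qC_add', ha, hb, add_zero]
  zero_mem' := by simp [qC, rc]
  smul_mem' := by
    intro c a ha
    have : rc (c • a) = (c : ℂ) • rc a := by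
      funext i
      simp [rc]
    show qC B.q p (rc (c • a)) = 0
    rw [this, qC_smul', ha, mul_zero]

theorem nefl_of (h : LAT) : NEFL := by
  intro n r B Y s w p k hY ι L ρ l hL hε ε h0
  obtain ⟨P, hP⟩ := (perp B p).exists_isCompl
  let pr := (perp B p).projectionOnto P hP
  choose a ha using fun i : Fin r => h.hd hY (pr (Pi.single i 1)).1 (pr (Pi.single i 1)).2
  have hb : ∀ i, ∃ C : ℝ, 0 < C ∧ ∀ e x, At e x →
      ((C : ℂ) • w e (e x) - a i e (e x)).PosSemidef ∧
        ((C : ℂ) • w e (e x) + a i e (e x)).PosSemidef := by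
    intro i
    have h1 := (ha i).1
    have h2 := (h.rel.add (-1) 0 (ha i) (ha i)).1
    obtain ⟨C, hC, c1⟩ := QN.exists_comparison_form hY.2.1.1.toIsHermitian h1.smooth h1.herm h1.form
    obtain ⟨C', hC', c2⟩ :=
      QN.exists_comparison_form hY.2.1.1.toIsHermitian h2.smooth h2.herm h2.form
    refine ⟨C + C', by positivity, fun e x hx => ⟨?_, ?_⟩⟩
    · have := (c1 e x hx).add ((hY.2.1.1.posDef e x hx).posSemidef.smul
        (show (0 : ℂ) ≤ (C' : ℂ) by exact_mod_cast hC'.le))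
      refine (congrArg Matrix.PosSemidef ?_).mp this
      push_cast
      rw [add_smul]
      abel
    · have := (c2 e x hx).add ((hY.2.1.1.posDef e x hx).posSemidef.smul
        (show (0 : ℂ) ≤ (C : ℂ) by exact_mod_cast hC.le))
      refine (congrArg Matrix.PosSemidef ?_).mp this
      push_cast
      rw [add_smul, neg_smul, one_smul, zero_smul]
      abel
  choose C hC hc using hb
  have hS : 0 < ∑ i, C i + 1 := by
    have := Finset.sum_nonneg fun i (_ : i ∈ Finset.univ) => (hC i).le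
    linarith
  have hπ : 0 < 2 * Real.pi := by positivity
  obtain ⟨w', κ, c, hc0, hw', hd⟩ := hε (ε / (∑ i, C i + 1) / (2 * Real.pi)) (by positivity)
  set δ : Fin r → ℝ := (2 * Real.pi) • zr l - (2 * Real.pi * c) • κ with hδ
  have m1 : δ ∈ perp B p := (perp B p).sub_mem (h.rel.p11 hY.1.1 hL.2)
    ((perp B p).smul_mem _ (h.rel.p11 hY.1.1 hw'.2))
  have n1 : ∀ i, |δ i| ≤ ε / (∑ i, C i + 1) := by
    intro i
    have e : δ = -((2 * Real.pi) • (c • κ - zr l)) := by
      rw [hδ, smul_sub, smul_smul, neg_sub]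
    have := norm_le_pi_norm δ i
    rw [Real.norm_eq_abs] at this
    refine this.trans ?_
    rw [e, norm_neg, norm_smul, Real.norm_eq_abs, abs_of_pos hπ]
    rw [lt_div_iff₀ hπ] at hd
    linarith
  have s1 : ∑ i, δ i • (pr (Pi.single i 1)).1 = δ := by
    have e : (pr (∑ i, δ i • Pi.single i (1 : ℝ))).1 = ∑ i, δ i • (pr (Pi.single i 1)).1 := by
      simp only [map_sum, map_smul, AddSubmonoidClass.coe_finsetSum, SetLike.val_smul]
    rw [← e, ← pi_eq_sum_univ' δ]
    exact congrArg Subtype.val (Submodule.projectionOnto_apply_left hP ⟨δ, m1⟩)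
  have c1 := c11_sum h hY.2.1.2 Finset.univ a _ ha δ
  rw [s1] at c1
  have c2 := h.rel.add (2 * Real.pi * c) 1 hw'.2 c1
  have e2 : (2 * Real.pi * c) • κ + (1 : ℝ) • δ = (2 * Real.pi) • zr l := by
    rw [one_smul, hδ, add_sub_cancel]
  rw [e2] at c2
  obtain ⟨u, hu, hu'⟩ := h.ddc hY.2.1 hY.2.2 c2 hL.2
  refine ⟨u, hu, fun e x hx => ?_⟩
  have e3 := hu' e x hx
  have p1 : ∀ i, (((|δ i| * C i : ℝ) : ℂ) • w e (e x) + (δ i : ℂ) • a i e (e x)).PosSemidef := by
    intro i
    rcases le_total 0 (δ i) with h1 | h1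
    · have := (hc i e x hx).2.smul (show (0 : ℂ) ≤ (δ i : ℂ) by exact_mod_cast h1)
      refine (congrArg Matrix.PosSemidef ?_).mp this
      rw [abs_of_nonneg h1, smul_add, smul_smul]
      push_cast
      rfl
    · have := (hc i e x hx).1.smul
        (show (0 : ℂ) ≤ ((-δ i : ℝ) : ℂ) by exact_mod_cast neg_nonneg.2 h1)
      refine (congrArg Matrix.PosSemidef ?_).mp this
      rw [abs_of_nonpos h1, smul_sub, smul_smul]
      push_cast
      rw [neg_smul (δ i : ℂ), sub_neg_eq_add]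
  have p2 := Matrix.posSemidef_sum Finset.univ fun i _ => p1 i
  have n2 : 0 ≤ ε - ∑ i, |δ i| * C i := by
    have : ∑ i, |δ i| * C i ≤ ε / (∑ i, C i + 1) * ∑ i, C i := by
      rw [Finset.mul_sum]
      exact Finset.sum_le_sum fun i _ => mul_le_mul_of_nonneg_right (n1 i) (hC i).le
    have h2 : ε / (∑ i, C i + 1) * ∑ i, C i ≤ ε := by
      rw [div_mul_eq_mul_div, div_le_iff₀ hS]
      nlinarith
    linarith
  have p3 := (hY.2.1.1.posDef e x hx).posSemidef.smul
    (show (0 : ℂ) ≤ ((ε - ∑ i, |δ i| * C i : ℝ) : ℂ) by exact_mod_cast n2)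
  have p4 := (hw'.1.posDef e x hx).posSemidef.smul
    (show (0 : ℂ) ≤ ((2 * Real.pi * c : ℝ) : ℂ) by exact_mod_cast (mul_pos hπ hc0).le)
  refine (congrArg Matrix.PosSemidef ?_).mp ((p2.add p3).add p4)
  rw [add_right_comm (curvature L ρ e (e x)), ← e3, Finset.sum_add_distrib, ← Finset.sum_smul,
    Complex.ofReal_sub, sub_smul, Complex.ofReal_sum, Complex.ofReal_one]
  simp only [one_smul]
  abel

end Vale.Agent.P301Z.Tp
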