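import Vale.Agent.P301Z.Defs

/-!
# P301Z: the blocks
-/

open scoped Manifold ContDiff ComplexOrder Topology Matrix
open Set Filter Metric
open Vale.Agent.P272.K
open Vale.Agent.P281Z (Mf)
open Vale.Agent.P301.H599 (IsHolTwoForm IsSymplectic LineBundle IsMetric curvature SameClass)
open Vale.Agent.P301.H450 (IsHK)
open Vale.Agent.P301Z.Lat

noncomputable section

namespace Vale.Agent.P301Z

/-- **LA1**: markings exist -/
def LA1 : Prop := ∀ (n : ℕ) (V : Mf (n + n)) (sc : SimplyConnectedSpace V.X) (w s : Fld V), 0 < n →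
  IsSymplectic (n + n) V.X w s → ∃ (r : ℕ) (B : BB n r) (m : Mark V r) (fuj : Fuj B m)
    (p : Fin r → ℂ) (k : Fin r → ℝ), MK.HK ⟨V, sc, m, fuj⟩ s w p k

/-- **LA2**: the period and the Kähler class of a marked hyperkähler manifold -/
def LA2 : Prop := ∀ (n r : ℕ) (B : BB n r) (Y : MK B) (s w : Fld Y.V) p k, Y.HK s w p k →
  IsSymplectic (n + n) Y.V.X w s ∧ qC B.q p p = 0 ∧ 0 < (qC B.q p (star p)).re ∧
    qC B.q p (rc k) = 0

/-- **LA3**: the first Chern class -/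
def LA3 : Prop := ∀ (n r : ℕ) (B : BB n r) (Y : MK B) (s w : Fld Y.V) p k, Y.HK s w p k →
  ∀ (ι : Type) (L : LineBundle (n + n) Y.V.X ι) (ρ : ι → Y.V.X → ℝ), IsMetric L ρ →
    (∃ l, Y.C1 L ρ l) ∧ ∀ l, Y.C1 L ρ l → qC B.q p (rc (zr l)) = 0 ∧
      (Isotropic L ρ ↔ qR B.q (zr l) (zr l) = 0) ∧
      (SameClass (curvature L ρ) (fun _ _ => 0) ↔ l = 0) ∧
      (Nef w L ρ → qR B.q (zr l) (zr l) = 0 → l ≠ 0 → 0 < qR B.q (zr l) k)

/-- **NEFL**: a limit of Kähler classes is nef -/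
def NEFL : Prop := ∀ (n r : ℕ) (B : BB n r) (Y : MK B) (s w : Fld Y.V) p k, Y.HK s w p k →
  ∀ (ι : Type) (L : LineBundle (n + n) Y.V.X ι) (ρ : ι → Y.V.X → ℝ) l, Y.C1 L ρ l →
    (∀ ε : ℝ, 0 < ε → ∃ (w' : Fld Y.V) (κ : Fin r → ℝ) (c : ℝ), 0 < c ∧ Y.Kc w' κ ∧
      ‖c • κ - zr l‖ < ε) → Nef w L ρ

/-- **DEF**: the deformation space of the pair -/
def DEF : Prop := ∀ (n r : ℕ) (B : BB n r) (X : MK B) (s w : Fld X.V) p k, X.HK s w p k →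
  ∀ (ι : Type) (L : LineBundle (n + n) X.V.X ι) (ρ : ι → X.V.X → ℝ) l, X.C1 L ρ l →
    qR B.q (zr l) (zr l) = 0 → 0 < qR B.q (zr l) k → Nonempty (DefF X L p k l)

/-- **LIN**: the frame and the slice -/
def LIN : Prop := ∀ (n r : ℕ) (B : BB n r) (p : Fin r → ℂ) (k : Fin r → ℝ) (l : Fin r → ℤ)
  (N : Set (Fin r → ℂ)) (N' : Set (Fin r → ℝ)), qC B.q p p = 0 → 0 < (qC B.q p (star p)).re →
  qC B.q p (rc k) = 0 → 0 < qR B.q k k → qC B.q p (rc (zr l)) = 0 → qR B.q (zr l) (zr l) = 0 →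
  0 < qR B.q (zr l) k → N ∈ 𝓝 p → N' ∈ 𝓝 k → ∃ F : Fr B, F.l = l ∧ Nonempty (Slice F N N')

/-- **ROT0**: the rotation exists -/
def ROT0 : Prop := ∀ (n r : ℕ) (B : BB n r) (Y : MK B) (s w : Fld Y.V) p k, Y.HK s w p k →
  IsHK s w 1 → ∃ Z : MK B, Rot Y s w Z

/-- **ROTC**: the classes of a rotation -/
def ROTC : Prop := ∀ (n r : ℕ) (B : BB n r) (Y Z : MK B) (s w : Fld Y.V) p k, Y.Sym s p →
  Y.Kc w k → Rot Y s w Z → ∃ s' w' : Fld Z.V, IsHK s' w' 1 ∧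
    Z.Sym s' ((2 : ℂ)⁻¹ • (rc k - p + star p)) ∧ Z.Kc w' fun i => 2 * (p i).re

/-- **ROT1**: a manifold with the period `j k x` and the Kähler class `Re p (x + i T)` is a
rotation -/
def ROT1 : Prop := ∀ (n r : ℕ) (B : BB n r) (F : Fr B) (k : Fin r → ℝ) (x T : ℝ) (Z : MK B)
  (s' w' : Fld Z.V) (c : ℂ) (c₁ : ℝ), F.InP k → 0 < T → c ≠ 0 → 0 < c₁ →
  Z.Sym s' (c • F.j k x) → Z.Kc w' (c₁ • F.re (x + T * Complex.I)) →
  ∃ P : Pt B, P.Y.Sym P.s (F.p (x + T * Complex.I)) ∧ RotK P k Z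

/-- **ALG**: in an uncountable family one member is connected with a ray -/
def ALG : Prop := ∀ (n r : ℕ) (B : BB n r) (F : Fr B) (k : Fin r → ℝ) (T : ℝ) (I : Set ℝ)
  (P : ℝ → Pt B), F.InP k → 0 < T → ¬ I.Countable →
  (∀ x ∈ I, (P x).Y.Sym (P x).s (F.p (x + T * Complex.I)) ∧
    ∃ (w : Fld (P x).Y.V) (lam : ℝ), 0 < lam ∧ (P x).Y.Kc w (lam • k)) →
  ∃ x ∈ I, ∃ R : Ray F k x, Conn F k x (P x) (R.R R.T₁).toPt

/-- **HL**: the rotation is constant in a local family -/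
def HL : Prop := ∀ (n r : ℕ) (B : BB n r) (F : Fr B) (k : Fin r → ℝ) (x : ℝ) (P P' : Pt B)
  (Z : MK B), F.InP k → Step F k x P P' → RotK P k Z → RotK P' k Z

/-- **ISO**: the rotation is invariant under isomorphisms -/
def ISO : Prop := ∀ (n r : ℕ) (B : BB n r) (k : Fin r → ℝ) (P P' : Pt B) (Z : MK B),
  Iso P P' → (RotK P k Z ↔ RotK P' k Z)

/-- **FLAT**: far out on the ray the hyperkähler metric is almost flat on a tube, and the classes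
`l`, `v`, `k` have no periods there -/
def FLAT : Prop := ∀ (n r : ℕ) (B : BB n r) (F : Fr B) (k : Fin r → ℝ) (x : ℝ) (R : Ray F k x)
  (w : ∀ T, Fld (R.R T).Y.V) (lam : ℝ → ℝ), F.InP k →
  (∀ T, R.T₁ ≤ T → 0 < lam T ∧ (R.R T).Y.Kc (w T) (lam T • k) ∧ IsHK (R.R T).s (w T) 1) →
  ∃ C : ℝ, 0 < C ∧ ∀ (ρ η : ℝ) (a : ℕ), 0 < ρ → 0 < η → ∃ T, R.T₁ ≤ T ∧
    ∃ Φ : Cm (n + n) → (R.R T).Y.V.X, ParT ρ Φ ∧
      (∀ v ∈ Key.Tb (n + n) ρ, Key.Flat (Key.pl (w T) Φ) C η a v) ∧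
      ∀ α β γ : ℂ, ZP (R.R T).Y ρ Φ (α • rc (zr F.l) + β • rc (zr F.v) + γ • rc k)

/-- **TOR**: the rotation of an almost flat tube contains a Lagrangian fibration -/
def TOR : Prop := ∀ (n : ℕ) (C : ℝ), 0 < C → ∃ (ρ η : ℝ) (a : ℕ), 0 < ρ ∧ 0 < η ∧
  ∀ (r : ℕ) (B : BB n r) (Y Z : MK B) (s w : Fld Y.V) p k (Φ : Cm (n + n) → Y.V.X)
    (s' w' b : Fld Z.V) (l : Fin r → ℝ), Y.Sym s p → Y.Kc w k → Rot Y s w Z → ParT ρ Φ →
    (∀ v ∈ Key.Tb (n + n) ρ, Key.Flat (Key.pl w Φ) C η a v) → ZP Y ρ Φ (rc k) →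
    ZP Y ρ Φ (p - star p) → ZP Y ρ Φ (rc l) → IsSymplectic (n + n) Z.V.X w' s' → Z.C11 b l →
    Nonempty (LagFib Z.V s' b)

/-- **SEC**: a local Lagrangian fibration gives sections -/
def SEC : Prop := ∀ (n : ℕ) (V : Mf (n + n)) [SimplyConnectedSpace V.X] (w s : Fld V),
  IsSymplectic (n + n) V.X w s → ∀ (ι : Type) (L : LineBundle (n + n) V.X ι) (ρ : ι → V.X → ℝ),
    IsMetric L ρ → Nef w L ρ → Isotropic L ρ → ¬ SameClass (curvature L ρ) (fun _ _ => 0) →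
    LagFib V s (curvature L ρ) → Semi.Grow L n

/-- **ABUN**: nef, isotropic and of Iitaka dimension `n` implies semiample -/
def ABUN : Prop := ∀ (n : ℕ) (V : Mf (n + n)) [SimplyConnectedSpace V.X] (w s : Fld V),
  IsSymplectic (n + n) V.X w s → ∀ (ι : Type) (L : LineBundle (n + n) V.X ι) (ρ : ι → V.X → ℝ),
    IsMetric L ρ → Nef w L ρ → Isotropic L ρ → ¬ SameClass (curvature L ρ) (fun _ _ => 0) →
    Semi.Grow L n → Semiample L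

/-- **TOP** -/
def TOP : Prop := LA1 → LA2 → LA3 → NEFL → DEF → LIN → ROTC → ROT1 → ALG → HL → ISO → FLAT → TOR →
  SEC → Semi.SEMI2 → ABUN → SYZ

end Vale.Agent.P301Z
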