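import Vale.Agent.P301Z.Top
import Vale.Agent.P301Z.La
import Vale.Agent.P301Z.Lat.All0
import Vale.Agent.P301Z.Lat.Reg
import Vale.Agent.P301Z.Lat.Fuj
import Vale.Agent.P301Z.Dg.All
import Vale.Agent.P301Z.Li.All
import Vale.Agent.P301Z.Rot.All
import Vale.Agent.P301Z.Al.All
import Vale.Agent.P301Z.Hl.All
import Vale.Agent.P301Z.Pt.All
import Vale.Agent.P301Z.Tor.All
import Vale.Agent.P301Z.Sec.All
import Vale.Agent.P301Z.Semi.All
import Vale.Agent.P301Z.Sa.Defs2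
import Vale.Agent.P301Z.Sa.RatFin
import Vale.Agent.P301Z.Sa.Rank
import Vale.Agent.P301Z.Sa.Geo
import Vale.Agent.P301Z.Sa.Leaf
import Vale.Agent.P301Z.Sa.Ch
import Vale.Agent.P301Z.Sa.Null
import Vale.Agent.P301Z.Sa.Unit
import Vale.Agent.P301Z.Sa.Un
import Vale.Agent.P301Z.Sa.Divl
import Vale.Agent.P301Z.Sa.Dim
import Vale.Agent.P301Z.Sa.Iso
import Vale.Agent.P301Z.Sa.Hke
import Vale.Agent.P301Z.Sa.Loc

/-!
# P301: the strong hyperkähler SYZ conjecture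
-/

namespace Vale.Agent.P301Z

namespace Fin0

open Vale.Agent.P301Z.Lat in
theorem lat : LAT := lat_of2 hd (fuj_of pwa pwb d20 d11 vol hd intv rat)

open Sa in
theorem abun : P301Z.ABUN :=
  abun_of2 rat_ok rank geo leaf (ch_of nul) (unit_of nul un divl) (dim_of (iso_of hke)) loc fin
    Ho.hpt

end Fin0

open Fin0 in
/-- **The strong hyperkähler SYZ conjecture** -/
theorem syz : SYZ :=
  Tp.top (Tp.la1_of lat) (Tp.la2_of lat) (Tp.la3_of lat) (Tp.nefl_of lat) (Dg.defo lat) Li.lin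
    Rot.rotc (Rot.rot1' lat) (Al.alg lat) (Hl.hl lat) Rot.iso (Pt.flat lat) Tor.tor Sec.sec
    Semi.semi2 abun

end Vale.Agent.P301Z
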