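import Vale.Agent.P301Z.Stmt
import Vale.Agent.P301.H949.Flat

/-! P301: a line bundle with exact curvature on a simply connected manifold is semiample, so the
hypothesis on the class can be dropped from the target. -/

open scoped Manifold ContDiff ComplexOrder Topology

namespace Vale.Agent.P301Z

open Vale.Agent.P272.K Vale.Agent.P301.H599 Vale.Agent.P301.H99 Vale.Agent.P301

variable {d : ℕ} {X : Type} [TopologicalSpace X] [ChartedSpace (Cm d) X] {ι : Type}

theorem semiample_of_flat [SimplyConnectedSpace X] [IsManifold 𝓘(ℂ, Cm d) ω X]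
    {L : LineBundle d X ι} {ρ : ι → X → ℝ} (hρ : IsMetric L ρ)
    (hex : SameClass (curvature L ρ) (fun _ _ => 0)) : Semiample L := by
  obtain ⟨v, hvs, hve⟩ := hex
  have hv' : Smooth (d := d) (fun x => (-1) * v x) := hvs.const_mul (-1)
  have hρ' : IsMetric L (fun i x => ρ i x + (-1) * v x) :=
    ⟨fun i e x hx hi => (hρ.smooth i e x hx hi).add (hv' e x hx), fun i j x hi hj => by
      rw [hρ.change i j x hi hj]; ring⟩
  obtain ⟨s, hs1, hs2, hs3, -⟩ := H949.exists_flat_section hρ' (fun e x hx => by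
    obtain ⟨i, hi⟩ := L.cover x
    have h2 : ContDiffAt ℝ 2 (fun z => ρ i (e.symm z)) (e x) :=
      (hρ.smooth i e x hx hi).of_le (by norm_cast)
    rw [curvature_eq hρ' hx hi]
    have e1 : cHess (fun z => ρ i (e.symm z) + (-1) * v (e.symm z)) (e x) =
        cHess (fun z => ρ i (e.symm z)) (e x) + cHess (fun z => (-1) * v (e.symm z)) (e x) :=
      cHess_add h2 (hv'.two e x hx)
    have e2 := hve e x hx
    rw [curvature_eq hρ hx hi, zero_add] at e2
    have e3 : cHess (fun z => (-1) * v (e.symm z)) (e x) = ((-1 : ℝ) : ℂ) •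
        cHess (fun z => v (e.symm z)) (e x) := cHess_const_mul (-1) (hvs.two e x hx)
    have e4 : cHess (fun z => v (e.symm z)) (e x) = ddc v e (e x) := rfl
    have e5 : cHess (fun z => ρ i (e.symm z)) (e x) = ddc v e (e x) := e2
    show cHess (fun z => ρ i (e.symm z) + (-1) * v (e.symm z)) (e x) = 0
    rw [e1, e3, e5, e4]
    push_cast
    module)
  refine ⟨1, one_pos, fun x => ⟨s, ⟨fun i e y hy hi => hs1 i y hi e hy, fun i j y hi hj => ?_⟩, ?_⟩⟩
  · rw [pow_one]
    exact hs2 i j y hi hj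
  · obtain ⟨i, hi⟩ := L.cover x
    exact ⟨i, hi, hs3 i x hi⟩

theorem SYZ.full (h : SYZ) (d : ℕ) (X : Type) [TopologicalSpace X] [T2Space X] [CompactSpace X]
    [SimplyConnectedSpace X] [ChartedSpace (Cm d) X] [IsManifold 𝓘(ℂ, Cm d) ω X]
    (w s : Chart d X → Cm d → Matrix (Fin d) (Fin d) ℂ) (hs : IsSymplectic d X w s)
    (ι : Type) (L : LineBundle d X ι) (ρ : ι → X → ℝ) (hρ : IsMetric L ρ) (hn : Nef w L ρ)
    (h0 : Isotropic L ρ) : Semiample L := by
  by_cases hc : SameClass (curvature L ρ) (fun _ _ => 0)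
  · exact semiample_of_flat hρ hc
  · exact h d X w s hs ι L ρ hρ hn h0 hc

end Vale.Agent.P301Z
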