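import Vale.Agent.P301Z.Top0

/-!
# P301Z: the assembly
-/

open scoped Manifold ContDiff ComplexOrder Topology Matrix
open Set Filter Metric
open Vale.Agent.P272.K
open Vale.Agent.P281Z (Mf)
open Vale.Agent.P301.H599 (IsHolTwoForm IsSymplectic LineBundle IsMetric curvature SameClass)
open Vale.Agent.P301.H450 (IsHK)
open Vale.Agent.P301Z.Lat

noncomputable section

namespace Vale.Agent.P301Z.Tp

variable {n r : ℕ} {B : BB n r}

theorem rc_smul (c : ℝ) (x : Fin r → ℝ) : rc (c • x) = (c : ℂ) • rc x := by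
  funext i
  simp [rc]

/-- a manifold which is the rotation of all members of a ray has many sections -/
theorem good (la2 : LA2) (la3 : LA3) (nefl : NEFL) (rotc : ROTC) (flat : FLAT) (tor : TOR)
    (sec : SEC) {F : Fr B} {k : Fin r → ℝ} {x : ℝ} (hk : F.InP k) (R : Ray F k x) (Z : MK B)
    (hR : ∀ T, R.T₁ ≤ T → RotK (R.R T).toPt k Z) {s w : Fld Z.V} {p κ} (hZ : Z.HK s w p κ)
    {ι : Type} (L : LineBundle (n + n) Z.V.X ι) (ρ : ι → Z.V.X → ℝ) (hL : Z.C1 L ρ F.l) :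
    Semi.Grow L n := by
  have hR' : ∀ T, ∃ (w : Fld (R.R T).Y.V) (lam : ℝ), R.T₁ ≤ T → 0 < lam ∧
      (R.R T).Y.Kc w (lam • k) ∧ Rot (R.R T).Y (R.R T).s w Z := by
    intro T
    by_cases hT : R.T₁ ≤ T
    · obtain ⟨w, lam, h⟩ := hR T hT
      exact ⟨w, lam, fun _ => h⟩
    · exact ⟨fun _ _ => 0, 0, fun h => absurd h hT⟩
  choose wT lam hw using hR'
  obtain ⟨C, hC, hfl⟩ := flat n r B F k x R wT lam hk fun T hT =>
    ⟨(hw T hT).1, (hw T hT).2.1, (hw T hT).2.2.1⟩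
  obtain ⟨ρ', η, a, h1, h2, ht⟩ := tor n C hC
  obtain ⟨T, hT, Φ, hP, hF, hz⟩ := hfl ρ' η a h1 h2
  obtain ⟨hs, -⟩ := la2 n r B Z s w p κ hZ
  have z1 : ZP (R.R T).Y ρ' Φ (rc (lam T • k)) := by
    have := hz 0 0 (lam T)
    rwa [zero_smul, zero_smul, zero_add, zero_add, ← rc_smul] at this
  have z2 : ZP (R.R T).Y ρ' Φ
      (F.p (x + T * Complex.I) - star (F.p (x + T * Complex.I))) := by
    have := hz (-(2 * Complex.I * T * (F.e * x / F.D : ℝ))) (2 * Complex.I * T) 0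
    rwa [zero_smul, add_zero, ← im_eq] at this
  have z3 : ZP (R.R T).Y ρ' Φ (rc ((2 * Real.pi) • zr F.l)) := by
    have := hz ((2 * Real.pi : ℝ) : ℂ) 0 0
    rwa [zero_smul, zero_smul, add_zero, add_zero, ← rc_smul] at this
  obtain ⟨G⟩ := ht r B (R.R T).Y Z (R.R T).s (wT T) _ _ Φ s w (curvature L ρ) _ (R.sym T hT)
    (hw T hT).2.1 (hw T hT).2.2 hP hF z1 z2 z3 hs hL.2
  have hn : Nef w L ρ := by
    refine nefl n r B Z s w p κ hZ ι L ρ F.l hL fun ε hε => ?_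
    obtain ⟨T', c, hT', hc, h⟩ := lim_l F x R.T₁ ε hε
    obtain ⟨-, w', -, -, h'⟩ := rotc n r B (R.R T').Y Z (R.R T').s (wT T') _ _ (R.sym T' hT')
      (hw T' hT').2.1 (hw T' hT').2.2
    exact ⟨w', _, c, hc, h', h⟩
  obtain ⟨-, h3, h4, -⟩ := (la3 n r B Z s w p κ hZ ι L ρ hL.1).2 F.l hL
  have hl : F.l ≠ 0 := by
    intro h
    have := F.lm
    rw [h] at this
    have h0 : qR B.q (zr (0 : Fin r → ℤ)) (zr F.m) = 0 := by simp [qR, zr]
    exact F.Dpos.ne' (this.symm.trans h0)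
  have := Z.sc
  exact sec n Z.V w s hs ι L ρ hL.1 hn (h3.2 F.ll) (fun h => hl (h4.1 h)) G

/-- the Iitaka dimension -/
theorem grow (la2 : LA2) (la3 : LA3) (nefl : NEFL) (df : DEF) (lin : LIN) (rotc : ROTC)
    (rot1 : ROT1) (alg : ALG) (hl : HL) (iso : ISO) (flat : FLAT) (tor : TOR) (sec : SEC)
    (semi : Semi.SEMI2) (X : MK B) {s w : Fld X.V} {p k} (hX : X.HK s w p k) {ι : Type}
    (L : LineBundle (n + n) X.V.X ι) (ρ : ι → X.V.X → ℝ) {l} (hL : X.C1 L ρ l)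
    (hll : qR B.q (zr l) (zr l) = 0) (hlk : 0 < qR B.q (zr l) k) : Semi.Grow L n := by
  obtain ⟨-, q1, q2, q3⟩ := la2 n r B X s w p k hX
  obtain ⟨q4, -⟩ := (la3 n r B X s w p k hX ι L ρ hL.1).2 l hL
  obtain ⟨E⟩ := df n r B X s w p k hX ι L ρ l hL hll hlk
  obtain ⟨r', hr', hr'R, hsemi⟩ := semi (n + n) E.b X.V.X (fun t => (E.Y t).V.X) E.κ E.M E.N E.R
    E.pos E.fam
  obtain ⟨U₁, hU₁, U₂, hU₂, hU⟩ := mem_nhds_prod_iff.1 E.kop
  have hχ : ContinuousAt E.χ p :=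
    (E.dχ.differentiableAt (E.opn.mem_nhds E.mem)).continuousAt
  have hN : E.N₀ ∩ E.χ ⁻¹' (U₁ ∩ ball 0 r') ∈ 𝓝 p := by
    refine inter_mem (E.opn.mem_nhds E.mem) (hχ ?_)
    rw [E.χ0]
    exact inter_mem hU₁ (ball_mem_nhds _ hr')
  obtain ⟨F, hF, ⟨S⟩⟩ := lin n r B p k l _ U₂ q1 q2 q3 hX.2.2 q4 hll hlk hN hU₂
  subst hF
  have hG : Semi.Grow (E.M 0) n := by
    refine hsemi n S.b S.p S.ρ (fun z => E.χ (S.J z)) S.pos ?_ ?_ ?_ ?_
    · exact E.dχ.comp S.hol fun z hz => (S.maps z hz).1.1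
    · exact fun z hz => (S.maps z hz).1.2.2
    · have hp : (fun i => (S.p i : ℂ)) ∈ ball (fun i => (S.p i : ℂ)) S.ρ := mem_ball_self S.pos
      obtain ⟨m1, m2, m3⟩ := S.maps _ hp
      obtain ⟨b1, c, hc, hper⟩ := E.inv _ m1.1 m2 m3
      refine ⟨E.χ (S.J fun i => (S.p i : ℂ)), mem_interior_iff_mem_nhds.2 ?_⟩
      have hb := isOpen_ball.mem_nhds b1
      have c1 : Tendsto (fun t => c⁻¹ • E.per t) (𝓝 (E.χ (S.J fun i => (S.p i : ℂ))))
          (𝓝 (S.J fun i => (S.p i : ℂ))) := by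
        have := (E.cont.continuousAt hb).tendsto.const_smul c⁻¹
        rwa [hper, smul_smul, inv_mul_cancel₀ hc, one_smul] at this
      filter_upwards [hb, c1.eventually S.opn] with t ht h
      obtain ⟨a1, a2⟩ := E.quad t ht
      obtain ⟨y, hy, c', -, hJ⟩ := h (by rw [qC_smul, qC_smul', a1, mul_zero, mul_zero])
        (by rw [qC_smul, a2, mul_zero])
      obtain ⟨n1, n2, n3⟩ := S.maps y hy
      obtain ⟨b2, c'', -, hper'⟩ := E.inv _ n1.1 n2 n3
      refine ⟨y, hy, E.inj _ b2 t ht (c'' * (c' * c⁻¹)) ?_⟩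
      rw [hper', hJ, smul_smul, smul_smul, mul_assoc]
    · intro y hy hc
      let z : ℝ → Cm (S.b + 1) := fun x i => ((Fin.cons x y : Fin (S.b + 1) → ℝ) i : ℂ)
      let t : ℝ → Cm E.b := fun x => E.χ (S.J (z x))
      have hz : ∀ x, |x - S.p 0| < S.ρ → z x ∈ ball (fun i => (S.p i : ℂ)) S.ρ := by
        intro x hx
        rw [mem_ball, dist_pi_lt_iff S.pos]
        intro i
        rw [Complex.dist_of_im_eq (by simp [z]), Real.dist_eq]
        refine Fin.cases ?_ (fun j => ?_) i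
        · simpa [z] using hx
        · simpa [z] using hy j
      have hk : F.InP (S.kk y) := (S.real (S.p 0) y (by simpa using S.pos) hy).1
      have key : ∀ x, |x - S.p 0| < S.ρ → t x ∈ ball (0 : Cm E.b) E.R ∧ ∃ (c : ℂ)
          (w' : Fld (E.Y (t x)).V), c ≠ 0 ∧ (E.Y (t x)).Sym (E.s (t x)) (c • F.j (S.kk y) x) ∧
          (E.Y (t x)).Kc w' (S.c₁ • F.re (x + S.T₀ * Complex.I)) := by
        intro x hx
        obtain ⟨m1, m2, m3⟩ := S.maps _ (hz x hx)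
        obtain ⟨b1, c, hc, hper⟩ := E.inv _ m1.1 m2 m3
        obtain ⟨-, r2, c', hc', hJ⟩ := S.real x y hx hy
        have e1 : E.per (t x) = (c * c') • F.j (S.kk y) x := by
          rw [mul_smul, ← hJ]
          exact hper
        obtain ⟨w', hw'⟩ := hU (mk_mem_prod m1.2.1 r2) (by
          show qC B.q (E.per (t x)) (rc (S.c₁ • F.re (x + S.T₀ * Complex.I))) = 0
          rw [e1, rc_smul, qC_smul, qC_smul', q_j_re F hk, mul_zero, mul_zero])
        exact ⟨b1, c * c', w', mul_ne_zero hc hc', e1 ▸ E.sym _ b1, hw'⟩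
      have hP : ∀ x, ∃ P : Pt B, |x - S.p 0| < S.ρ →
          P.Y.Sym P.s (F.p (x + S.T₀ * Complex.I)) ∧ RotK P (S.kk y) (E.Y (t x)) := by
        intro x
        by_cases hx : |x - S.p 0| < S.ρ
        · obtain ⟨-, c, w', h1, h2, h3⟩ := key x hx
          obtain ⟨P, hP⟩ := rot1 n r B F _ x S.T₀ _ _ w' c S.c₁ hk S.T0 h1 S.c1 h2 h3
          exact ⟨P, fun _ => hP⟩
        · exact ⟨⟨X, s⟩, fun h => absurd h hx⟩
      choose P hP using hP
      have hI : ¬ {x : ℝ | |x - S.p 0| < S.ρ ∧ ¬ Semi.Grow (E.M (t x)) n}.Countable := by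
        intro h
        have h2 : (Ioo (S.p 0 - S.ρ) (S.p 0 + S.ρ)).Countable := by
          refine (h.union hc).mono fun x hx => ?_
          have h3 : |x - S.p 0| < S.ρ := abs_sub_lt_iff.2 ⟨by linarith [hx.2], by linarith [hx.1]⟩
          by_cases h4 : Semi.Grow (E.M (t x)) n
          · exact Or.inr ⟨h3, h4⟩
          · exact Or.inl ⟨h3, h4⟩
        have h5 := h2.measure_zero MeasureTheory.volume
        rw [Real.volume_Ioo, ENNReal.ofReal_eq_zero] at h5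
        linarith [S.pos]
      obtain ⟨x, ⟨hx, hbad⟩, R, hconn⟩ := alg n r B F (S.kk y) S.T₀ _ P hk S.T0 hI fun x hx => by
        obtain ⟨h1, w, lam, h2, h3, -⟩ := hP x hx.1
        exact ⟨h1, w, lam, h2, h3⟩
      obtain ⟨b1, c, w', h1, h2, h3⟩ := key x hx
      refine hbad (good la2 la3 nefl rotc flat tor sec hk R (E.Y (t x))
        (ray_all hl hk R _ ((conn_iff hl iso hk hconn _).1 (hP x hx).2)) ⟨h2, h3, ?_⟩ _ _
        (E.c1 _ b1))
      rw [qR_smul, qR_smul', q_re]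
      have := S.c1
      have := S.T0
      have := F.epos
      positivity
  obtain ⟨K, hK, c, hc, h⟩ := hG
  exact ⟨K, hK, c, hc, fun m k hk => E.h0 _ _ (h m k hk)⟩

theorem even_of {d : ℕ} {S : Matrix (Fin d) (Fin d) ℂ} (h : Sᵀ = -S) (h0 : S.det ≠ 0) :
    ∃ n, d = n + n := by
  rcases Nat.even_or_odd d with ⟨n, hn⟩ | ho
  · exact ⟨n, hn⟩
  · exfalso
    have h1 : S.det = (-1) ^ d * S.det := by
      conv_lhs => rw [← Matrix.det_transpose, h, Matrix.det_neg, Fintype.card_fin]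
    rw [ho.neg_one_pow] at h1
    exact h0 (by linear_combination (1 / 2 : ℂ) * h1)

/-- **TOP** -/
theorem top : TOP := by
  intro la1 la2 la3 nefl df lin rotc rot1 alg hl iso flat tor sec semi abun d X _ _ _ sc _ _ w s hs
    ι L ρ hρ hn hi hne
  obtain ⟨x⟩ : Nonempty X := inferInstance
  have hx : At (chartAt (Cm d) x) x := ⟨chart_mem_atlas _ x, mem_chart_source _ x⟩
  obtain ⟨n, rfl⟩ := even_of (hs.form.alt _ x hx) (hs.nondeg _ x hx)
  have h0 : 0 < n := by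
    rcases Nat.eq_zero_or_pos n with rfl | h
    · exact absurd ⟨fun _ => 0, fun _ _ _ => contDiffAt_const, fun _ _ _ =>
        Matrix.ext fun i _ => i.elim0⟩ hne
    · exact h
  let V : Mf (n + n) := ⟨X⟩
  obtain ⟨r, B, m, fuj, p, k, hX⟩ := la1 n V sc w s h0 hs
  obtain ⟨⟨l, hl'⟩, h3⟩ := la3 n r B ⟨V, sc, m, fuj⟩ s w p k hX ι L ρ hρ
  obtain ⟨-, a1, a2, a3⟩ := h3 l hl'
  have hll := a1.1 hi
  exact abun n V w s hs ι L ρ hρ hn hi hne (grow la2 la3 nefl df lin rotc rot1 alg hl iso flat tor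
    sec semi ⟨V, sc, m, fuj⟩ hX L ρ hl' hll (a3 hn hll fun h => hne (a2.2 h)))

end Vale.Agent.P301Z.Tp
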